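import Vale.Agent.P088.H207.H4
import Vale.Agent.P088.H207.J3

/-!
# P088: the orthogonality relation for two metrics, from equal data on a manifold
-/

set_option linter.all false

open Bundle Manifold MeasureTheory Set Filter Topology
open scoped ContDiff Matrix ENNReal

noncomputable section

namespace Vale.Agent.P088.H207.J

open Vale.Agent.P088 Vale.Agent.P088.EYM Vale.Agent.P088.EYM.O Vale.Agent.P088.H207

universe u

section

variable {n N : ℕ} [NeZero n] {M : Type u} [TopologicalSpace M]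
  [ChartedSpace (EuclideanHalfSpace n) M] [IsManifold (𝓡∂ n) ∞ M] [T2Space M] [CompactSpace M]
  [MeasurableSpace M] [BorelSpace M] [ConnectedSpace M]

/-- The orthogonality relation, both metrics arbitrary in the ball. -/
theorem orth2 (hn : 2 ≤ n) {P Q : One n N M} {Γ : Set M} (hΓ : RelBd n Γ)
    (hne : Γ.Nonempty) (hS : SameD P Q Γ) {p : M} {R ρ : ℝ} (hR : IsCB n p R) (hρ : 0 < ρ)
    (hρR : ρ < R)
    (hPB : ∀ x ∈ Metric.ball (xc n p p) R, ∀ i, (P.loc p).B i x = 0)
    (hQB : ∀ x ∈ Metric.ball (xc n p p) R, ∀ i, (Q.loc p).B i x = 0)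
    (hA : ∀ m, m ∉ cb n p ρ → ∀ X : TangentSpace (𝓡∂ n) m, P.A.form m X = Q.A.form m X)
    (hg : ∀ m, m ∉ cb n p ρ → ∀ v w : TangentSpace (𝓡∂ n) m,
      Q.g.inner m v w = P.g.inner m v w)
    {F G : E n → Fib N} (hF : Sol (P.loc p) (Metric.ball (xc n p p) R) F)
    (hG : Sol (Q.loc p) (Metric.ball (xc n p p) R) G) :
    ∫ y in Metric.closedBall (xc n p p) ρ, ∑ j, ∑ l,
      ((gg (Q.loc p).g j l y - gg (P.loc p).g j l y : ℝ) : ℂ) *
        inner ℂ (pd j G y) (pd l F y) = 0 := by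
  obtain ⟨hrel, hok, hbdy, hsm⟩ := TM.fLoc n N M
  set z : E n := xc n p p with hz
  have hbt : Metric.ball z R ⊆ tg n p :=
    Metric.ball_subset_closedBall.trans (hR.2.trans inter_subset_left)
  have hpos : Metric.ball z R ⊆ {y | 0 < y 0} :=
    Metric.ball_subset_closedBall.trans (hR.2.trans inter_subset_right)
  have hbH : Metric.ball z R ⊆ Hs n := fun y hy => le_of_lt (show 0 < y 0 from hpos hy)
  have hbr : RelOpen (Metric.ball z R) := CHarm_relOpen_of_open Metric.isOpen_ball hbH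
  have hKR : Metric.closedBall z ρ ⊆ Metric.ball z R := Metric.closedBall_subset_ball hρR
  have hokP : (P.loc p).Ok (Metric.ball z R) := CHarm_ok_mono (hok P p) hbt
  have hokQ : (Q.loc p).Ok (Metric.ball z R) := CHarm_ok_mono (hok Q p) hbt
  obtain ⟨⟨hsP, hsQ, -⟩, -⟩ := Vale.Agent.P088.EYM.cData TM.fUniq TM.fForm n N M P Q Γ hΓ hne hS
  obtain ⟨ρ₁, hρ₁, hρ₁R⟩ := exists_between hρR
  obtain ⟨uk, huk, hlu⟩ := runge_seq n N M P Γ p R ρ₁ hn hΓ hne hsP hR (hρ.trans hρ₁) hρ₁R F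
    (hF.1.of_le two_le_inf) hF.2
  obtain ⟨wk, hwk, hlw⟩ := runge_seq n N M Q Γ p R ρ₁ hn hΓ hne hsQ hR (hρ.trans hρ₁) hρ₁R G
    (hG.1.of_le two_le_inf) hG.2
  obtain ⟨C, hC⟩ := grad_est n N (P.loc p) z R ρ ρ₁ hokP hbH hρ₁ hρ₁R
  obtain ⟨C', hC'⟩ := grad_est n N (Q.loc p) z R ρ ρ₁ hokQ hbH hρ₁ hρ₁R
  set I : ℕ → ℝ := fun k => C * ∫ y in Metric.ball z ρ₁, ‖lu (𝓡∂ n) p (uk k) y - F y‖ ^ 2
  set I' : ℕ → ℝ := fun k => C' * ∫ y in Metric.ball z ρ₁, ‖lu (𝓡∂ n) p (wk k) y - G y‖ ^ 2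
  have hI : Tendsto I atTop (𝓝 0) := by
    have := hlu.const_mul C
    rwa [mul_zero] at this
  have hI' : Tendsto I' atTop (𝓝 0) := by
    have := hlw.const_mul C'
    rwa [mul_zero] at this
  have he : Tendsto (fun k => √(I k) + √(I' k)) atTop (𝓝 0) := by
    have h1 := (Real.continuous_sqrt.tendsto 0).comp hI
    have h2 := (Real.continuous_sqrt.tendsto 0).comp hI'
    rw [Real.sqrt_zero] at h1 h2
    have := h1.add h2
    rwa [add_zero] at this
  have husol : ∀ k, Sol (P.loc p) (Metric.ball z R) (lu (𝓡∂ n) p (uk k)) := by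
    intro k
    obtain ⟨f, hf, hu⟩ := huk k
    have h1 := TM.fHarm n N M P f (uk k) hu p
    exact ⟨h1.1.mono hbt, fun x hx => h1.2 x (hbt hx)⟩
  have hwsol : ∀ k, Sol (Q.loc p) (Metric.ball z R) (lu (𝓡∂ n) p (wk k)) := by
    intro k
    obtain ⟨f, hf, hu⟩ := hwk k
    have h1 := TM.fHarm n N M Q f (wk k) hu p
    exact ⟨h1.1.mono hbt, fun x hx => h1.2 x (hbt hx)⟩
  have hpdc : ∀ {u : E n → Fib N}, ContDiffOn ℝ ∞ u (Metric.ball z R) → ∀ j,
      ContinuousOn (pd j u) (Metric.closedBall z ρ) := fun hu j =>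
    ((hbr.pd_smooth hu j).continuousOn).mono hKR
  have hpdsub : ∀ {u v : E n → Fib N}, ContDiffOn ℝ ∞ u (Metric.ball z R) →
      ContDiffOn ℝ ∞ v (Metric.ball z R) → ∀ j, ∀ y ∈ Metric.ball z R,
      pd j (fun y => u y - v y) y = pd j u y - pd j v y := by
    intro u v hu hv j y hy
    rw [cRunge_pd (hpos hy), cRunge_pd (hpos hy), cRunge_pd (hpos hy), fderiv_fun_sub
      ((hu.contDiffAt (Metric.isOpen_ball.mem_nhds hy)).differentiableAt (by simp))
      ((hv.contDiffAt (Metric.isOpen_ball.mem_nhds hy)).differentiableAt (by simp))]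
    rfl
  refine lim_int (isCompact_closedBall z ρ) (fk := fun k j => pd j (lu (𝓡∂ n) p (uk k)))
    (gk := fun k j => pd j (lu (𝓡∂ n) p (wk k))) (fun j l => ?_) (fun j => hpdc hF.1 j)
    (fun j => hpdc hG.1 j) (fun k j => hpdc (husol k).1 j) (fun k j => hpdc (hwsol k).1 j) he
    ?_ ?_ ?_
  · exact Complex.continuous_ofReal.comp_continuousOn
      ((((hbr.gg_smooth hokQ.g_smooth hokQ.g_pos j l).continuousOn).mono hKR).sub
        (((hbr.gg_smooth hokP.g_smooth hokP.g_pos j l).continuousOn).mono hKR))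
  · intro k j y hy
    rw [← hpdsub (husol k).1 hF.1 j y (hKR hy)]
    have h1 := hC _ (cClosed_sol_sub hbr hokP (husol k) hF) y hy
    have h2 : ‖pd j (fun y => lu (𝓡∂ n) p (uk k) y - F y) y‖ ≤ √(I k) := by
      refine Real.le_sqrt_of_sq_le (le_trans ?_ h1)
      refine pow_le_pow_left₀ (norm_nonneg _) ?_ 2
      refine (Finset.single_le_sum
        (f := fun j => ‖pd j (fun y => lu (𝓡∂ n) p (uk k) y - F y) y‖)
        (fun _ _ => norm_nonneg _) (Finset.mem_univ j)).trans ?_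
      exact le_add_of_nonneg_left (norm_nonneg _)
    exact h2.trans (le_add_of_nonneg_right (Real.sqrt_nonneg _))
  · intro k j y hy
    rw [← hpdsub (hwsol k).1 hG.1 j y (hKR hy)]
    have h1 := hC' _ (cClosed_sol_sub hbr hokQ (hwsol k) hG) y hy
    have h2 : ‖pd j (fun y => lu (𝓡∂ n) p (wk k) y - G y) y‖ ≤ √(I' k) := by
      refine Real.le_sqrt_of_sq_le (le_trans ?_ h1)
      refine pow_le_pow_left₀ (norm_nonneg _) ?_ 2
      refine (Finset.single_le_sum
        (f := fun j => ‖pd j (fun y => lu (𝓡∂ n) p (wk k) y - G y) y‖)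
        (fun _ _ => norm_nonneg _) (Finset.mem_univ j)).trans ?_
      exact le_add_of_nonneg_left (norm_nonneg _)
    exact h2.trans (le_add_of_nonneg_left (Real.sqrt_nonneg _))
  · intro k
    obtain ⟨f, hf, hu⟩ := huk k
    obtain ⟨h, hh, hw⟩ := hwk k
    have h1 := en_diff P Q hR hρR hA hg hu.smooth hw.smooth (en_eq hΓ hne hS (huk k) (hwk k))
    rw [← h1]
    refine setIntegral_congr_fun Metric.isClosed_closedBall.measurableSet fun y hy => ?_
    rw [ed_nc Q p hQB _ _ (hKR hy), ed_nc P p hPB _ _ (hKR hy)]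
    rw [← Finset.sum_sub_distrib]
    refine Finset.sum_congr rfl fun j _ => ?_
    rw [← Finset.sum_sub_distrib]
    refine Finset.sum_congr rfl fun l _ => ?_
    push_cast
    ring

/-- Equal data on `M` give the orthogonality relation of the two tensors in the ball. -/
theorem star2_one (hn : 2 ≤ n) (a : Fin N) {P Q : One n N M} {Γ : Set M} (hΓ : RelBd n Γ)
    (hne : Γ.Nonempty) (hS : SameD P Q Γ) {p : M} {R ρ : ℝ} (hR : IsCB n p R) (hρ : 0 < ρ)
    (hρR : ρ < R)
    (hPB : ∀ x ∈ Metric.ball (xc n p p) R, ∀ i, (P.loc p).B i x = 0)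
    (hQB : ∀ x ∈ Metric.ball (xc n p p) R, ∀ i, (Q.loc p).B i x = 0)
    (hA : ∀ m, m ∉ cb n p ρ → ∀ X : TangentSpace (𝓡∂ n) m, P.A.form m X = Q.A.form m X)
    (hg : ∀ m, m ∉ cb n p ρ → ∀ v w : TangentSpace (𝓡∂ n) m,
      Q.g.inner m v w = P.g.inner m v w)
    {g₁ g₂ : LR.MF n} (hg₁ : LR.SmM g₁) (hg₂ : LR.SmM g₂) (hp₁ : ∀ y, (g₁ y).PosDef)
    (hp₂ : ∀ y, (g₂ y).PosDef)
    (hgP : ∀ x ∈ Metric.ball (xc n p p) R, g₁ (tr (xc n p p) x) = (P.loc p).g x)
    (hgQ : ∀ x ∈ Metric.ball (xc n p p) R, g₂ (tr (xc n p p) x) = (Q.loc p).g x) :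
    LR.CF.St2 (bB n R) (LR.sg g₁) (LR.sg g₂) := by
  have hR0 : 0 < R := hR.1
  set z : E n := xc n p p with hz
  have hbt : Metric.ball z R ⊆ tg n p :=
    Metric.ball_subset_closedBall.trans (hR.2.trans inter_subset_left)
  have hpos : Metric.ball z R ⊆ {y | 0 < y 0} :=
    Metric.ball_subset_closedBall.trans (hR.2.trans inter_subset_right)
  have hs₁ : LR.SmM (LR.sg g₁) := H833.smM_sg hg₁ hp₁
  have hs₂ : LR.SmM (LR.sg g₂) := H833.smM_sg hg₂ hp₂
  have hsy₁ := H833.symm_sg hp₁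
  have hsy₂ := H833.symm_sg hp₂
  have hgg₁ : ∀ x ∈ Metric.ball z R, ∀ j k,
      gg (P.loc p).g j k x = LR.sg g₁ (tr z x) j k := by
    intro x hx j k
    unfold LR.sg gg
    rw [hgP x hx]
    rfl
  have hgg₂ : ∀ x ∈ Metric.ball z R, ∀ j k,
      gg (Q.loc p).g j k x = LR.sg g₂ (tr z x) j k := by
    intro x hx j k
    unfold LR.sg gg
    rw [hgQ x hx]
    rfl
  intro U W hU hW hUe hWe
  have hW' := conj_cd hW
  -- the two local solutions
  have hF : Sol (P.loc p) (Metric.ball z R) (li N z a U) := by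
    refine ⟨(li_cd hU).contDiffOn, fun x hx => ?_⟩
    rw [li_lop (s := LR.sg g₁) Metric.isOpen_ball hpos hPB hs₁ hgg₁ hU hx]
    unfold li
    simp only
    rw [hUe _ ((tr_bB z hR0 x).2 hx)]
    simp
  have hG : Sol (Q.loc p) (Metric.ball z R) (li N z a fun y => (starRingEnd ℂ) (W y)) := by
    refine ⟨(li_cd hW').contDiffOn, fun x hx => ?_⟩
    rw [li_lop (s := LR.sg g₂) Metric.isOpen_ball hpos hQB hs₂ hgg₂ hW' hx]
    unfold li
    simp only
    rw [conj_dv hs₂ hW, hWe _ ((tr_bB z hR0 x).2 hx)]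
    simp
  have h0 := orth2 hn hΓ hne hS hR hρ hρR hPB hQB hA hg hF hG
  -- the integrand
  set f : (Fin n → ℝ) → ℂ := fun x => ∑ i, ∑ j, ((LR.sg g₂ x - LR.sg g₁ x) i j : ℂ) *
    LR.pd i U x * LR.pd j W x with hf
  have hint : ∀ x ∈ Metric.ball z R, (∑ j, ∑ l,
      ((gg (Q.loc p).g j l x - gg (P.loc p).g j l x : ℝ) : ℂ) *
        inner ℂ (pd j (li N z a fun y => (starRingEnd ℂ) (W y)) x) (pd l (li N z a U) x)) =
      f (tr z x) := by
    intro x hx
    rw [hf]
    simp only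
    rw [Finset.sum_comm]
    refine Finset.sum_congr rfl fun l _ => ?_
    refine Finset.sum_congr rfl fun j _ => ?_
    rw [cRunge_pd (hpos hx), cRunge_pd (hpos hx), li_fd (hW'.differentiable (by simp) _),
      li_fd (hU.differentiable (by simp) _), hgg₂ x hx, hgg₁ x hx]
    unfold li
    simp only
    rw [conj_pd (hW.differentiable (by simp) _), inner_smul_left, inner_smul_right,
      EuclideanSpace.inner_single_left]
    have e1 : (LR.sg g₁ (tr z x) j l) = LR.sg g₁ (tr z x) l j := (hsy₁ (tr z x)).apply l j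
    have e2 : (LR.sg g₂ (tr z x) j l) = LR.sg g₂ (tr z x) l j := (hsy₂ (tr z x)).apply l j
    rw [e1, e2, Matrix.sub_apply]
    simp only [Complex.conj_conj]
    simp
    ring
  have hfz : ∀ x ∈ Metric.ball z R, x ∉ Metric.closedBall z ρ → f (tr z x) = 0 := by
    intro x hx hxρ
    have h5 : (xc n p).symm x ∉ cb n p ρ := by
      rintro ⟨x', hx', he⟩
      have h6 : x' = x := (xc n p).symm.injOn
        ((hR.2 (Metric.closedBall_subset_closedBall hρR.le hx')).1) (hbt hx) he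
      exact hxρ (h6 ▸ hx')
    have h6 : g₂ (tr z x) = g₁ (tr z x) := by
      rw [hgQ x hx, hgP x hx]
      ext i j
      exact hg _ h5 _ _
    have h7 : LR.sg g₂ (tr z x) = LR.sg g₁ (tr z x) := by
      unfold LR.sg
      rw [h6]
    rw [hf]
    simp only
    rw [h7, sub_self]
    simp
  -- change of variables
  have h1 : ∫ x in Metric.ball z R, f (tr z x) = 0 := by
    have e1 : ∫ x in Metric.closedBall z ρ, f (tr z x) = 0 := by
      rw [← h0]
      refine (setIntegral_congr_fun Metric.isClosed_closedBall.measurableSet fun y hy => ?_).symm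
      exact hint y (Metric.closedBall_subset_ball hρR hy)
    rw [← e1]
    refine setIntegral_eq_of_subset_of_forall_diff_eq_zero
      Metric.isOpen_ball.measurableSet (Metric.closedBall_subset_ball hρR) ?_
    intro x hx
    exact hfz x hx.1 hx.2
  have h2 : ∫ x, (bB n R).indicator f (tr z x) = ∫ x in Metric.ball z R, f (tr z x) := by
    rw [← integral_indicator Metric.isOpen_ball.measurableSet]
    refine integral_congr_ae (Eventually.of_forall fun x => ?_)
    by_cases hx : x ∈ Metric.ball z R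
    · simp only [indicator_of_mem hx, indicator_of_mem ((tr_bB z hR0 x).2 hx)]
    · have hx' : tr z x ∉ bB n R := fun h => hx ((tr_bB z hR0 x).1 h)
      simp only [indicator_of_notMem hx, indicator_of_notMem hx']
  rw [h1, int_tr z] at h2
  rw [integral_indicator bB_open.measurableSet] at h2
  exact h2

end

end Vale.Agent.P088.H207.J

end
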