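import Vale.Agent.P088.H207.K2

/-!
# P088: local uniqueness near a rigid metric of a ball, general closeness condition
-/

set_option linter.all false

open Bundle Manifold MeasureTheory Set Filter Topology
open scoped ContDiff Matrix ENNReal

noncomputable section

namespace Vale.Agent.P088.H207.J.K

open Vale.Agent.P088 Vale.Agent.P088.B Vale.Agent.P088.EYM
open Vale.Agent.P088.H207 (gl oball kball IsBall Match CloseTo isCB_of kball_at oball_at ch_at
  gch_at compl_cb)

universe u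

/-- Rigidity of the metric `h` on the ball of radius `R`, among the metrics `g` with `X g`. -/
def RigX (n : ℕ) (R : ℝ) (h : LR.MF n) (X : LR.MF n → Prop) : Prop :=
  ∀ g : LR.MF n, LR.SmM g → (∀ y, (g y).PosDef) → (∀ y ∉ bB n R, g y = h y) → X g →
    LR.CF.St2 (bB n R) (LR.sg h) (LR.sg g) →
    ∃ w K, LR.Dif (bB n R) w K ∧ ∀ y, g y = (LR.jm w y)ᵀ * h (y + w y) * LR.jm w y

/-- Local uniqueness near a rigid metric of a ball. -/
theorem bg_ballX {n : ℕ} [NeZero n] (hn : 3 ≤ n) {R : ℝ} (hR0 : 0 < R)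
    {h : LR.MF n} (hh : LR.SmM h) (hhp : ∀ y, (h y).PosDef) {X : LR.MF n → Prop}
    (hrig : RigX n R h X)
    {N : ℕ} (hN : 1 ≤ N) {M : Type u} [TopologicalSpace M]
    [ChartedSpace (EuclideanHalfSpace n) M] [IsManifold (𝓡∂ n) ∞ M] [T2Space M] [CompactSpace M]
    [ConnectedSpace M] (Z : At n M) (hZ : Z = at_ n M) (Γ O₀ : Set M) (hO₀ : IsOpen O₀)
    (hΓ : Γ = O₀ ∩ bd Z) (hne : Γ.Nonempty) (P P' Q : Pair Z N)
    (hd : Vale.Agent.P088.B.SameData Γ P Q)
    (hR : Related Γ P P') (p : M) (hp : IsBall Z p R)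
    (hconf : Match h P' p R) (ρ : ℝ) (hρ : 0 < ρ)
    (hρR : ρ < R) (hpw : B8.PwLe (kball Z p ρ)ᶜ Γ P' Q)
    (hU : ∃ U, B8.GaugeBy U (kball Z p ρ)ᶜ Γ P'.A Q.A Z)
    (hX : ∀ g : LR.MF n, LR.SmM g → (∀ y, (g y).PosDef) →
      (∀ y ∈ bB n R, g y = gch Z Q.g p (y + Z.ch p p)) → (∀ y ∉ bB n R, g y = h y) → X g) :
    Related Γ P Q := by
  have hd' : Vale.Agent.P088.B.SameData Γ P' Q := Vale.Agent.P088.B.same_related Z hZ hO₀ hΓ hne hR hd
  subst hZ
  obtain ⟨U, hU⟩ := hU
  letI := borel M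
  haveI : BorelSpace M := ⟨rfl⟩
  obtain ⟨hrel, hok, -, -⟩ := TM.fLoc n N M
  have hCB : IsCB n p R := isCB_of hp
  have hK : kball (at_ n M) p ρ = cb n p ρ := kball_at hCB hρ.le hρR.le
  have hV : oball (at_ n M) p R = (xc n p).symm '' Metric.ball (xc n p p) R := oball_at hCB
  obtain ⟨hOo, hOp, hObd⟩ := compl_cb (M := M) (n := n) (by omega) hCB hρ hρR
  have hb : bd (at_ n M) = (𝓡∂ n).boundary M := bd_at
  set z : E n := xc n p p with hz
  have hbt : Metric.ball z R ⊆ tg n p :=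
    Metric.ball_subset_closedBall.trans (hCB.2.trans inter_subset_left)
  have hpos : Metric.ball z R ⊆ {y | 0 < y 0} :=
    Metric.ball_subset_closedBall.trans (hCB.2.trans inter_subset_right)
  have hmem : ∀ y ∈ Metric.ball z R, (xc n p).symm y ∈ oball (at_ n M) p R := fun y hy => by
    rw [hV]
    exact mem_image_of_mem _ hy
  have hchy : ∀ y ∈ Metric.ball z R, (at_ n M).ch p ((xc n p).symm y) = WithLp.ofLp y :=
    fun y hy => by rw [ch_at, (xc n p).right_inv (hbt hy)]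
  -- the hole
  have hole : B8.Hole U (kball (at_ n M) p ρ) (oball (at_ n M) p R) Γ P' Q := by
    refine ⟨?_, ?_, ?_, ?_, ?_, hpw, hU⟩
    · rw [hK]
      exact isOpen_compl_iff.1 hOo
    · rw [hK, hb, eq_empty_iff_forall_notMem]
      rintro x ⟨h1, h2⟩
      exact hObd x h2 h1
    · rw [hK]
      exact hOp
    · rw [hV]
      exact cRungeB_B_open TM.fLoc hCB
    · rw [hK, hV]
      exact image_mono (Metric.closedBall_subset_ball hρR)
  obtain ⟨h1, -, h2⟩ := B8.hole' hn hN (at_ n M) rfl Γ O₀ hO₀ hΓ hne P' Q hd' U _ _ hole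
  obtain ⟨V, hV1, -⟩ := h2 ⟨fun _ => 1, fun a b => contMDiffOn_const, fun x hx => ⟨by simp, fun j => by
    have e1 : dM (fun y : Vale.Agent.P088.B.V n => (1 : Matrix (Fin N) (Fin N) ℂ))
        ((at_ n M).ch x x) j = 0 := by
      ext a b
      unfold dM dj
      simp
    rw [e1, (hconf x hx).2, Matrix.mul_zero]
    rfl⟩⟩
  -- the second pair with the first connection
  have hgeq : Vale.Agent.P088.B.GaugeEq Γ P'.A Q.A (at_ n M) :=
    ⟨V, hV1.1, hV1.2.1, hV1.2.2.1, fun x j => hV1.2.2.2 x (mem_univ x) j⟩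
  obtain ⟨W, hW, hW1, hW2⟩ := Vale.Agent.P088.B.toGauge hgeq
  have hS : EYM.SameD (B2.one P') (EYM.O.wA (B2.one Q) (B2.one P').A) Γ :=
    (EYM.O.mg_closed n N M (EYM.O.wA (B2.one Q) (B2.one P').A) (B2.one P') Γ
      (B2.one Q).A W hW hW1 hW2).2.2 (Vale.Agent.P088.B.sameD_one hd')
  have hRB : EYM.RelBd n Γ := ⟨O₀, hO₀, by rw [hΓ, hb]⟩
  have hchp : (at_ n M).ch p p = WithLp.ofLp z := ch_at p p
  have hgP : ∀ y ∈ Metric.ball z R, gl P' p y = h (tr z y) := by
    intro y hy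
    have e1 := (hconf _ (hmem y hy)).1
    rw [hchy y hy, gch_at P' p (hbt hy), hchp] at e1
    exact e1
  have hA0 : ∀ y ∈ Metric.ball z R, P'.A ((xc n p).symm y) = 0 := fun y hy =>
    (hconf _ (hmem y hy)).2
  have hAP : ∀ y ∈ Metric.ball z R, ∀ i, ((B2.one P').loc p).B i y = 0 := by
    intro y hy i
    show S.formOf (P'.A ((xc n p).symm y)) _ = 0
    rw [hA0 y hy]
    show (S.formOf (0 : Fin n → Matrix (Fin N) (Fin N) ℂ)) _ = 0
    rw [formOf_zero]
    rfl
  have hokQ : ((EYM.O.wA (B2.one Q) (B2.one P').A).loc p).Ok (Metric.ball z R) :=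
    CHarm_ok_mono (hok _ p) hbt
  -- the two metrics in centred coordinates
  have hsq : ρ ^ 2 < R ^ 2 := pow_lt_pow_left₀ hρR hρ.le two_ne_zero
  set y₀ : Fin n → ℝ := WithLp.ofLp z with hy₀
  have htr : ∀ x : E n, tr z x + y₀ = WithLp.ofLp x := by
    intro x
    funext j
    show (x j - z j) + z j = x j
    ring
  have htri : ∀ y : Fin n → ℝ, WithLp.ofLp (tri z y) = y + y₀ := by
    intro y
    funext j
    show z j + y j = y j + z j
    ring
  set f : LR.MF n := fun y => gch (at_ n M) Q.g p (y + y₀) with hf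
  have hfgl : ∀ y ∈ bB n R, f y = gl Q p (tri z y) := by
    intro y hy
    have e1 := gch_at Q p (hbt ((tri_bB z hR0 y).2 hy))
    rw [htri] at e1
    exact e1
  have hf1 : ∀ y ∈ bB n R, ρ ^ 2 < ∑ i, (y i) ^ 2 → f y = h y := by
    intro y hy hy'
    have hx := (tri_bB z hR0 y).2 hy
    have hxρ : tri z y ∉ Metric.closedBall z ρ := by
      intro h
      rw [mem_closedBall_iff_norm] at h
      have e1 : ∑ i, (y i) ^ 2 = ‖tri z y - z‖ ^ 2 := by
        rw [← tr_sq, tr_tri]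
      rw [e1] at hy'
      exact absurd (pow_le_pow_left₀ (norm_nonneg _) h 2) (not_le.2 hy')
    have h5 : (xc n p).symm (tri z y) ∉ cb n p ρ := by
      rintro ⟨x', hx', he⟩
      have h6 : x' = tri z y := (xc n p).symm.injOn
        ((hCB.2 (Metric.closedBall_subset_closedBall hρR.le hx')).1) (hbt hx) he
      exact hxρ (h6 ▸ hx')
    have e1 : gl Q p (tri z y) = gl P' p (tri z y) := by
      ext i j
      show S.bil (Q.g _) _ _ = S.bil (P'.g _) _ _
      rw [h1 _ (by rw [hK]; exact h5)]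
    rw [hfgl y hy, e1, hgP _ hx, tr_tri]
  have hfs : ∀ i j, ContDiffOn ℝ ∞ (fun y => f y i j) (bB n R) := by
    intro i j
    have e2 : ContDiffOn ℝ ∞ (fun x : E n => gl Q p x i j) (Metric.ball z R) :=
      hokQ.g_smooth i j
    refine (e2.comp (tri_cd z).contDiffOn fun y hy => (tri_bB z hR0 y).2 hy).congr
      fun y hy => ?_
    rw [hfgl y hy]
    rfl
  set g : LR.MF n := glue R f h with hg
  have hgs : LR.SmM g := glue_sm hsq hfs hh hf1
  have hgp : ∀ y, (g y).PosDef := by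
    intro y
    by_cases hy : y ∈ bB n R
    · rw [hg, glue_in hy, hfgl y hy]
      exact hokQ.g_pos _ ((tri_bB z hR0 y).2 hy)
    · rw [hg, glue_out hy]
      exact hhp y
  have hgQ : ∀ x ∈ Metric.ball z R, g (tr z x) = gl Q p x := by
    intro x hx
    have e1 := (tr_bB z hR0 x).2 hx
    rw [hg, glue_in e1, hfgl _ e1, tri_tr]
  have hgPc : ∀ x ∈ Metric.ball z R, h (tr z x) = gl P' p x := fun x hx => (hgP x hx).symm
  have hgX : X g := by
    refine hX g hgs hgp (fun y hy => ?_) fun y hy => glue_out hy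
    rw [hg, glue_in hy, hchp]
  have hstar : LR.CF.St2 (bB n R) (LR.sg h) (LR.sg g) :=
    star2_one (by omega) (⟨0, by omega⟩ : Fin N) (P := B2.one P')
      (Q := EYM.O.wA (B2.one Q) (B2.one P').A) hRB hne hS hCB hρ hρR
      (fun y hy i => hAP y hy i) (fun y hy i => hAP y hy i) (fun x _ X => rfl)
      (fun x hx v w => by
        show S.bil (Q.g x) v w = S.bil (P'.g x) v w
        rw [h1 x (by rw [hK]; exact hx)]) hh hgs hhp hgp hgPc hgQ
  obtain ⟨w, K, D, hwK⟩ := hrig g hgs hgp (fun y hy => glue_out hy) hgX hstar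
  refine related_mv hR hCB D ?_ hA0 ?_ ?_ hgeq
  · intro x hx hx'
    rw [hΓ, hb] at hx
    have h3 : x ∈ Mi n M := cRungeB_cb_mi TM.fLoc hCB
      (image_mono Metric.ball_subset_closedBall hx')
    have h4 := hx.2
    rw [← ModelWithCorners.compl_interior] at h4
    exact h4 h3
  · intro m hm
    refine h1 m ?_
    rw [hK]
    exact fun h => hm (image_mono (Metric.closedBall_subset_ball hρR) h)
  · intro y hy
    have e1 := tch_on hR0 (lc_w D) (z := z) hy
    have e2 : tr z (tch z (fun y => y + w y) y) = tr z y + w (tr z y) := by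
      unfold tch
      rw [tr_tri]
    rw [← hgQ y hy, hwK, ← hgPc _ e1, e2]

end Vale.Agent.P088.H207.J.K

end
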